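import Vale.Agent.P224.SMH.B14
import Vale.Agent.P224.SH.Chk14
import Vale.Agent.P224.SH.Yser14
import Vale.Agent.P224.POS.EOk2

/-!
The data of the static part in dimension 14.
-/

namespace Vale.Agent.P224.POS.M14

open Set Filter Function Vale.Agent.P224
open Vale.Agent.P224.SMH Vale.Agent.P224.SH
open Vale.Agent.P224.SM2 hiding ker

lemma yl {T : ℝ} (hT : T ∈ Ioo (0 : ℝ) 1) : (1 - T) ^ 6 * SMH.pd 100000 B14.Lyl T ≤ yF 7 (3003 / 32) T :=
  y14_low ⟨hT.1.le, hT.2.le⟩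

lemma yu {T : ℝ} (hT : T ∈ Ioo (0 : ℝ) 1) : yF 7 (3003 / 32) T ≤ (1 - T) ^ 6 * SMH.pd 100000 B14.Lyu T :=
  y14_up ⟨hT.1.le, hT.2.le⟩

lemma yu0 {T : ℝ} (hT : T ∈ Ioo (0 : ℝ) 1) :
    yF 7 (3003 / 32) T ≤ (1 - T) ^ 6 * SMH.pd 1000000 B14.Lyu0 T :=
  y14_up0 ⟨hT.1.le, hT.2.le⟩

/-- the bounds of the coefficient functions -/
theorem bds {y Z e r : ℝ → ℝ} {lam : ℝ} (hc : Cert 14 y Z e r) (hl : CertLim 14 y Z e r lam)
    (hyl : ∀ T ∈ Ioo (0 : ℝ) 1, (1 - T) ^ 6 * SMH.pd 100000 B14.Lyl T ≤ y T)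
    (hyu : ∀ T ∈ Ioo (0 : ℝ) 1, y T ≤ (1 - T) ^ 6 * SMH.pd 100000 B14.Lyu T)
    {T : ℝ} (hT : T ∈ Ioo (0 : ℝ) 1) : SH.Bds BD14 T (y T) (e T) (r T) where
  y := by
    have h := hyl T hT
    have e1 : pv BD14.y T = BD14.N * ((1 - T) ^ 6 * SMH.pd 100000 B14.Lyl T) := by
      simp only [SMH.pd, B14.Lyl, BD14, pv]
      push_cast
      ring
    rw [e1]
    exact mul_le_mul_of_nonneg_left h (Nat.cast_nonneg _)
  el := by
    have h := B14.el hc hl hyl T hT
    have e1 : pv BD14.el T = BD14.N * (T * (1 - T) ^ (6 + 2) * SMH.pd 100000 B14.Lel T) := by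
      simp only [SMH.pd, B14.Lel, BD14, pv]
      push_cast
      ring
    rw [e1]
    exact mul_le_mul_of_nonneg_left h (Nat.cast_nonneg _)
  eu := by
    have h := B14.eu hc hl hyu T hT
    have e1 : pv BD14.eu T = BD14.N * (T * (1 - T) ^ (6 + 2) * SMH.pd 100000 B14.Leu T) := by
      simp only [SMH.pd, B14.Leu, BD14, pv]
      push_cast
      ring
    rw [e1]
    exact mul_le_mul_of_nonneg_left h (Nat.cast_nonneg _)
  rl := by
    have h := B14.rl hc hl hyl T hT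
    have e1 : pv BD14.rl T = BD14.N * ((1 - T) ^ (6 + 2) * SMH.pd 100000 B14.Lrl T) := by
      simp only [SMH.pd, B14.Lrl, BD14, pv]
      push_cast
      ring
    rw [e1]
    exact mul_le_mul_of_nonneg_left h (Nat.cast_nonneg _)
  ru := by
    have h := B14.ru hc hl hyu T hT
    have e1 : pv BD14.ru T = BD14.N * ((1 - T) ^ (6 + 2) * SMH.pd 100000 B14.Lru T) := by
      simp only [SMH.pd, B14.Lru, BD14, pv]
      push_cast
      ring
    rw [e1]
    exact mul_le_mul_of_nonneg_left h (Nat.cast_nonneg _)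

/-- the data of the static part in dimension 14 -/
theorem eok : EOk (2 * 7) (evenRatio 7) (5066 / 10000) HD14 := by
  refine eok_of_expl2 (a := 7) (c := 3003 / 32) (by norm_num) (by norm_num) (by norm_num) ?_
    fun lam hc hl => ⟨?_, fun T hT k hk => le_FKK okK14 hT
      (bds hc hl (fun _ h => yl h) (fun _ h => yu h) hT) hk⟩
  · unfold cE
    rw [show (((2 * 7 : ℕ) : ℝ) / 2) = 7 by norm_num, II_seven_zero]
    norm_num
  · have h1 := B14.r_zero hc hl fun _ h => yu0 h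
    push_cast
    linarith

end Vale.Agent.P224.POS.M14
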