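import Vale.Agent.P224.POS.Psd

/-!
Certificate data: Gram matrices 4,5,6 and their positive semidefiniteness.
-/

namespace Vale.Agent.P224.POS.M14

open Vale.Agent.P224.POS

noncomputable section

/-- Gram matrix of block 4 ((u1-E)*sca00), rows of the lower triangle -/
def G4 : List (List Int) := rowsZ 4611686018427387904 [
  2306718971912493952,
  10989511632289012918016792556930850560,
  79073910655734636131838018449728335366427009381633720192,
  250769637013224826192526551116480819309428300339496219505785785194267851520,
  1428434582743673537890154325942493251407691844371435001075110703038460623104438093506634908032] 0

/-- witness of block 4 -/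
def W4 : List (List Nat) := rowsN 4294967296 [
  2176642431,
  10359876366211748251,
  40313515075144541280550542729,
  190704640586402275756373351208552590500,
  732788298629058895345412369407309186037183143483] 0

set_option maxRecDepth 100000 in
theorem psd4 : psdChk 2147483648 1 4288015942632 W4 G4 = true := by decide +kernel

/-- Gram matrix of block 5 ((u1-E)*sca10), rows of the lower triangle -/
def G5 : List (List Int) := rowsZ 562949953421312 [
  479034067110656] 0

/-- witness of block 5 -/
def W5 : List (List Nat) := rowsN 33554432 [
  25666740] 0

set_option maxRecDepth 100000 in
theorem psd5 : psdChk 16777216 1 59267727119946 W5 G5 = true := by decide +kernel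

/-- Gram matrix of block 6 ((u1-E)*sca11), rows of the lower triangle -/
def G6 : List (List Int) := rowsZ 140737488355328 [
  113245331777664,
  15938283241544589071585171456,
  2243133640309185808630318915042494061695232] 0

/-- witness of block 6 -/
def W6 : List (List Nat) := rowsN 8388608 [
  8335803,
  69928807824640,
  586613801002777706208] 0

set_option maxRecDepth 100000 in
theorem psd6 : psdChk 4194304 1 6431142790696 W6 G6 = true := by decide +kernel

end

end Vale.Agent.P224.POS.M14
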