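import Vale.Agent.P224.POS.M14.Z
import Vale.Agent.P224.POS.M14.Id
import Vale.Agent.P224.POS.EOk
import Vale.Agent.P224.SH.HDM14

/-!
The sharp volume bound in dimension 14, from the data of the static part.
-/

namespace Vale.Agent.P224.POS.M14

open MeasureTheory Set Filter Function Module Vale.Agent.P224 Vale.Agent.P224.UE
open Vale.Agent.P224.SMH Vale.Agent.P224.SH
open Vale.Agent.P224.SM2 hiding ker
open scoped Topology RealInnerProductSpace ENNReal ContDiff Manifold

variable {V W M : Type*} [NormedAddCommGroup V] [InnerProductSpace ℝ V] [FiniteDimensional ℝ V]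
  [NormedAddCommGroup W] [InnerProductSpace ℝ W] [FiniteDimensional ℝ W]
  [TopologicalSpace M] [ChartedSpace V M]
  [MeasurableSpace V] [BorelSpace V] [MeasurableSpace M] [BorelSpace M]
  [IsManifold 𝓘(ℝ, V) ∞ M] [CompactSpace M] [T2Space M] [ConnectedSpace M]
  [MeasurableSpace W] [BorelSpace W]

/-- The sharp bound in dimension 14 from the data of the static part. -/
theorem main_of_eok (hE : EOk (2 * 7) (evenRatio 7) (5066 / 10000) HD14) (hV : finrank ℝ V = 14)
    (hW : finrank ℝ W = finrank ℝ V + 2)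
    {F : M → W} (hF : SphImm V F) (hmin : ∀ x n, IsUnitNormal V F x n → meanCurv V F x n = 0)
    (hng : ¬ ∃ a : W, a ≠ 0 ∧ ∀ x, ⟪F x, a⟫ = 0) :
    ENNReal.ofReal (leastClifford (finrank ℝ V)) ≤ volM V F univ := by
  rw [er_seven] at hE
  refine main_of hV hW hF hmin hng le_rfl (fun N hNs hN hinj v => ?_)
    fun e x N y w he hx hN hy hw hxN hyw _ => pos he hx hN hy hw hxN hyw
  exact hE.static (m := 14) (kA := 6) (kB := 8) (by norm_num) HD14_zOk HD14_dvOk (by norm_num)
    (by norm_num) (fun x hx => Hd_HD14 hx) hV hW hF hmin hNs hN hinj v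

end Vale.Agent.P224.POS.M14
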