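import Vale.Agent.P224.POS.M14.Rows
import Vale.Agent.P224.POS.LawNumM
import Mathlib.Analysis.Real.Pi.Bounds

/-!
The numerical law of the certificate in dimension 14.
-/

namespace Vale.Agent.P224.POS.M14

open Vale.Agent.P224.UE

/-- **The numerical law.** -/
theorem hneg {γ : ℝ} (hγ : γ ≤ 5066 / 10000) : ∀ Θ u r : ℝ, 6 / 5 ≤ Θ → Θ < 15015 * Real.pi / 32768 → 0 ≤ u →
    Θ ^ 2 * u ≤ 1 → u ^ 2 ≤ r → r ≤ u →
      Θ * (1 + γ * u + (0 + (0 + (-(29260231086571 / 9758165696512)) + (11790215191 / 4294967296)) * u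
        + ((-(1758702707 / 1073741824)) + (444724213 / 1073741824)) * r
        + ((-(169822911 / 2147483648)) + (1287348111 / 4294967296)) * u ^ 2
        + 0 * ((u - r) / (2 * ((7 : ℕ) : ℝ) + 1))))
        + (gam 7 7)⁻¹ * rvalM (2 * 7) (rl 853839498444800000 rows) u r < 15015 * Real.pi / 32768 := by
  intro Θ u r h1 h2 hu hT hr1 hr2
  have p1 := Real.pi_gt_d6
  have p2 := Real.pi_lt_d6
  have hg : (gam 7 7)⁻¹ = 3003 / 16 := by norm_num [gam]
  have hr : rvalM (2 * 7) (rl 853839498444800000 rows) u r = -(182662153 / 64424509440) * u + 302342819 / 32212254720 * r := rval_eq u r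
  rw [hg, hr]
  refine law_negM_S (Cl := 143954 / 100000) (Cu := 143955 / 100000) (γu := 5066 / 10000)
    (φ1 := 3003 / 16 * (-(182662153 / 64424509440))) (φ2 := 3003 / 16 * (302342819 / 32212254720))
    (by linarith) (by linarith) hγ (by norm_num) (by norm_num) (by norm_num) ?_ ?_
    h1 h2 hu hT hr1 hr2 (by ring)
  · intro T hT1 hT2
    exact quintic_neg (by norm_num) (by norm_num) (by norm_num) (by norm_num) (by norm_num)
      (by norm_num) (by norm_num) (le_of_eq rfl) (le_of_eq rfl) (le_of_eq rfl) (le_of_eq rfl)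
      (le_of_eq rfl) (le_of_eq rfl) hT1 hT2
  · intro T hT1 hT2
    exact quintic_neg (by norm_num) (by norm_num) (by norm_num) (by norm_num) (by norm_num)
      (by norm_num) (by norm_num) (le_of_eq rfl) (le_of_eq rfl) (le_of_eq rfl) (le_of_eq rfl)
      (le_of_eq rfl) (le_of_eq rfl) hT1 hT2

end Vale.Agent.P224.POS.M14
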